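import Vale.Agent.P167.N.Kit
import Vale.Agent.P167.N.H542.Q.FamB
import Vale.Agent.P167.H825.Q.BdQ

/-! generated from Vale.Agent.P167.H825.Q.BdQ (q < 1 port) -/

set_option autoImplicit false

namespace Vale.Agent.P167.N.H825.Q

open Vale.Agent.P167.H825.Q Vale.Agent.P167.H825

open Finset Filter Topology MeasureTheory

open Vale.Agent.P167.H825 (Box enl pdir)

open Vale.Agent.P167.H718 (Dob Chordless etaW dob_etaW chordless_re)

open Vale.Agent.P167.E6 (IsPolygon Encloses dir)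

open Vale.Agent.P167.H662.L (TwoA)

open Vale.Agent.P167.H542.Q (BD)

variable {l : ℕ} {p : ZMod l → ℤ × ℤ} {S₀ : Finset (ℤ × ℤ)} {n t : ℕ}

section data

variable (S : CA.Dat) (θ β : ℝ) (bc : Bc)

end data

/-- **The output of block 2A for the family of the Dobrushin functionals.** -/
theorem twoA_bdG {θ β : ℝ} (h2 : S2aQq θ β) (h0 : 0 < θ) (h1 : Ang θ)
    (hβ : Real.cos (θ / 2 + β) = Real.sin θ) (S : CA.Dat) {bc : Bc} (hbc : bc.In S.l)
    {L : Filter ℕ} (hL : L ≤ atTop) (hc : L.IsCountablyGenerated) {η : ℕ → Cfg}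
    (hη : ∀ᶠ n in L, Dob (η n) (S.D n) (qS S n) (kS S bc n)) :
    TwoA (2 / (Real.pi - θ)) S (bdG S θ β bc hbc L hL hc η hη).L (GPos S.tp bc)
      (fun n f => (((Vale.Agent.P167.N.H542.Q.BD.famB (bdG S θ β bc hbc L hL hc η hη)) h0 h1 hβ).Vc n fun z => (f z : ℂ)).re) := by
  have h1_lt := h1.lt
  have hpi := Real.pi_pos
  have key := twoA_of h2 (Real.sin_pos_of_pos_of_lt_pi h0 (by linarith))
    (Real.cos_pos_of_mem_Ioo ⟨by linarith, by linarith⟩) hβ S hbc hL hη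
  have e : (fun n f =>
      (((Vale.Agent.P167.N.H542.Q.BD.famB (bdG S θ β bc hbc L hL hc η hη)) h0 h1 hβ).Vc n fun z => (f z : ℂ)).re) =
      fun n f => QX.VQ θ β (qS S n) (S.D n) (kS S bc n) (η n) f := by
    funext n f
    show (H542.Q.VQ (2 * Real.cos θ) (S.D n) (η n) (H542.Q.thB θ β (qS S n) (S.D n) (kS S bc n))
      (qS S n 0) fun z => (f z : ℂ)).re = _
    rw [H542.Q.VQ_XB hβ, Complex.ofReal_re]
    rfl
  rw [e]
  exact key

/-- **The output of block 2A for the family of the Dobrushin functionals.** -/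
theorem twoA_bdQ {θ β : ℝ} (h2 : S2aQq θ β) (h0 : 0 < θ) (h1 : Ang θ)
    (hβ : Real.cos (θ / 2 + β) = Real.sin θ) (S : CA.Dat) {bc : Bc} (hbc : bc.In S.l)
    {L : Filter ℕ} (hL : L ≤ atTop) (hc : L.IsCountablyGenerated) :
    TwoA (2 / (Real.pi - θ)) S (bdQ S θ β bc hbc L hL hc).L (GPos S.tp bc)
      (fun n f => (((Vale.Agent.P167.N.H542.Q.BD.famB (bdQ S θ β bc hbc L hL hc)) h0 h1 hβ).Vc n fun z => (f z : ℂ)).re) :=
  twoA_bdG h2 h0 h1 hβ S hbc hL hc (hL (dob_qS S bc))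

end Vale.Agent.P167.N.H825.Q
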