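import Vale.Agent.P167.N.H825.Q.Start
import Vale.Agent.P167.H640.ND.SymX

/-!
# P167, `0 < q < 1`, block 2A: reduction to polygons in the positive quadrant

The output `S2aQq` of block 2A for all polygons follows from the output `S2aQqN` for the polygons in
the positive quadrant (translation by an even vector).
-/

set_option autoImplicit false

namespace Vale.Agent.P167.N.H825.Q

open Vale.Agent.P167.H825.Q Vale.Agent.P167.H825

open Finset Filter Topology MeasureTheory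

open Vale.Agent.P167.BR (pcs IsLp mass)

open Vale.Agent.P167.H135 (Mov tra)

open Vale.Agent.P167.H640.ND (Mq poly_mov enc_mov lo_mov hi_mov par_mov)

open Vale.Agent.P167.E6 (IsPolygon Encloses dir region)

open Vale.Agent.P167.FK (cf)

open Vale.Agent.P167.H680.Q (alpq)

/-! ### the lattice -/

section lattice

variable {N k : ℕ} {q : ZMod N → ℤ × ℤ} {D : Finset (ℤ × ℤ)}

theorem XQ_mov (M : Mov) (θ : ℝ) (hq : IsPolygon q) (ψ : ℕ → ℝ) (f : ℤ × ℤ → ℝ) (ω : Cfg) :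
    QX.XQ θ (Mq M q) (M.S D) ψ (M.F f) (M.c ω) = QX.XQ θ q D ψ f ω := by
  classical
  unfold QX.XQ
  rw [M.pcs_c, prod_image (fun A _ B _ h => M.E_inj h)]
  refine prod_congr rfl fun A _ => ?_
  have e1 : IsLp (M.S D) (M.E A) = IsLp D A := propext M.isLp_E
  unfold QX.wQ
  rw [lo_mov M hq, hi_mov M hq, e1]
  unfold Mq
  rw [M.mass_E]

theorem ZQ_mov (M : Mov) (θ : ℝ) (hq : IsPolygon q) (ψ : ℕ → ℝ) (f : ℤ × ℤ → ℝ) :
    QX.ZQ θ (Mq M q) (M.S D) ψ (M.F f) = QX.ZQ θ q D ψ f := by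
  classical
  unfold QX.ZQ
  have hS : (M.S D).powerset = D.powerset.image (fun S => S.image M.s) := by
    show (D.image M.s).powerset = _
    rw [powerset_image]
  rw [hS, sum_image (fun S _ S' _ h => image_injective M.s.injective h)]
  refine sum_congr rfl fun S _ => ?_
  have e : cf (M.S D) FK.eta0 (S.image M.s) = M.c (cf D FK.eta0 S) := by
    funext v
    simp only [cf, Mov.c]
    have h1 : v ∈ M.S D ↔ M.s.symm v ∈ D := by rw [M.mem_S']
    have h2 : v ∈ S.image M.s ↔ M.s.symm v ∈ S := by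
      rw [mem_image]
      constructor
      · rintro ⟨x, hx, rfl⟩
        rwa [Equiv.symm_apply_apply]
      · intro h
        exact ⟨_, h, Equiv.apply_symm_apply _ _⟩
    simp only [h1, h2]
    rfl
  rw [e, XQ_mov M θ hq]

theorem stag_mov (M : Mov) (θ β : ℝ) (ka : ℕ) :
    QX.stag θ β (Mq M q) ka = QX.stag θ β q ka := by
  funext z
  unfold QX.stag Mq
  simp only [par_mov]

end lattice

section shift

variable {l : ℕ} {p : ZMod l → ℤ × ℤ} {S₀ : Finset (ℤ × ℤ)} (v : ℤ × ℤ)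

/-- The translated polygon. -/
def pSh (p : ZMod l → ℤ × ℤ) : ZMod l → ℤ × ℤ := fun i => p i + v

/-- The translated set of squares. -/
def sSh (S₀ : Finset (ℤ × ℤ)) : Finset (ℤ × ℤ) := S₀.image (· + v)

theorem pdir_sh (i : ℕ) : pdir (pSh v p) i = pdir p i := by
  unfold pdir pSh
  rw [add_sub_add_right_eq_sub]

theorem even_sh (hv : Even (v.1 + v.2)) (n : ℕ) :
    Even ((((n : ℤ) • v).1) + (((n : ℤ) • v).2)) := by
  have e : (((n : ℤ) • v).1) + (((n : ℤ) • v).2) = n * (v.1 + v.2) := by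
    simp only [Prod.smul_fst, Prod.smul_snd, smul_eq_mul]
    ring
  rw [e]
  exact hv.mul_left _

theorem PN_sh (n m : ℕ) : Enl.PN (pSh v p) n m = Enl.PN p n m + (n : ℤ) • v := by
  unfold Enl.PN
  rw [pdir_sh]
  unfold pSh
  rw [smul_add]
  abel

theorem qN_sh (hv : Even (v.1 + v.2)) (n t : ℕ) :
    Enl.qN (pSh v p) n t = Mq (tra ((n : ℤ) • v) (even_sh v hv n)) (Enl.qN p n t) := by
  funext k
  exact PN_sh v n _

theorem enl_sh (hv : Even (v.1 + v.2)) (n : ℕ) :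
    enl (sSh v S₀) n = (tra ((n : ℤ) • v) (even_sh v hv n)).S (enl S₀ n) := by
  ext z
  have e : z ∈ (tra ((n : ℤ) • v) (even_sh v hv n)).S (enl S₀ n) ↔ z - (n : ℤ) • v ∈ enl S₀ n := by
    rw [Mov.mem_S']
    have : (tra ((n : ℤ) • v) (even_sh v hv n)).s.symm z = z - (n : ℤ) • v := by
      rw [Equiv.symm_apply_eq]
      show z = z - (n : ℤ) • v + (n : ℤ) • v
      rw [sub_add_cancel]
    rw [this]
  rw [e]
  unfold enl sSh
  simp only [mem_biUnion, mem_image, mem_product, mem_range, Prod.exists]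
  constructor
  · rintro ⟨a, b, ⟨a', b', h, h'⟩, i, j, ⟨hi, hj⟩, rfl⟩
    refine ⟨a', b', h, i, j, ⟨hi, hj⟩, ?_⟩
    have h1 := congrArg Prod.fst h'
    have h2 := congrArg Prod.snd h'
    simp only [Prod.fst_add, Prod.snd_add] at h1 h2
    ext
    · simp only [Prod.fst_sub, Prod.smul_fst, smul_eq_mul, ← h1]
      ring
    · simp only [Prod.snd_sub, Prod.smul_snd, smul_eq_mul, ← h2]
      ring
  · rintro ⟨a', b', h, i, j, ⟨hi, hj⟩, h'⟩
    refine ⟨a' + v.1, b' + v.2, ⟨a', b', h, rfl⟩, i, j, ⟨hi, hj⟩, ?_⟩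
    have h1 := congrArg Prod.fst h'
    have h2 := congrArg Prod.snd h'
    simp only [Prod.fst_sub, Prod.snd_sub, Prod.smul_fst, Prod.smul_snd, smul_eq_mul] at h1 h2
    ext
    · show (n : ℤ) * (a' + v.1) + i = z.1
      linarith
    · show (n : ℤ) * (b' + v.2) + j = z.2
      linarith

theorem VT_sh (hv : Even (v.1 + v.2)) (hp : IsPolygon p) {n : ℕ} (hn : 0 < n) (θ β : ℝ) (t ka : ℕ)
    (f f' : ℤ × ℤ → ℝ) (hf : ∀ z, f' z = f (z - (n : ℤ) • v)) :
    VT θ β (pSh v p) (sSh v S₀) n t ka f' = VT θ β p S₀ n t ka f := by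
  have hq := Enl.isPolygon_qN hn hp t
  have e1 : f' = (tra ((n : ℤ) • v) (even_sh v hv n)).F f := by
    funext z
    rw [hf]
    show f (z - (n : ℤ) • v) = f ((tra ((n : ℤ) • v) (even_sh v hv n)).t.symm z)
    congr 1
  have e2 : (0 : ℤ × ℤ → ℝ) = (tra ((n : ℤ) • v) (even_sh v hv n)).F 0 := rfl
  unfold VT
  rw [qN_sh v hv, enl_sh v hv, stag_mov, e1, ZQ_mov _ _ hq]
  congr 1
  conv_lhs => rw [e2]
  rw [ZQ_mov _ _ hq]

theorem enc_sh (hv : Even (v.1 + v.2)) (hD : Encloses p S₀) : Encloses (pSh v p) (sSh v S₀) :=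
  enc_mov (tra v hv) hD

theorem poly_sh (hv : Even (v.1 + v.2)) (hp : IsPolygon p) : IsPolygon (pSh v p) :=
  poly_mov (tra v hv) hp

end shift

/-! ### the plane -/

section plane

/-- The real vector. -/
def rv (v : ℤ × ℤ) : ℝ × ℝ := (v.1, v.2)

/-- The translated function. -/
def fSh (v : ℤ × ℤ) (F : ℝ × ℝ → ℝ) : ℝ × ℝ → ℝ := fun x => F (x - rv v)

theorem dvg_sh (v : ℤ × ℤ) (φ₁ φ₂ : ℝ × ℝ → ℝ) : dvg (fSh v φ₁) (fSh v φ₂) = fSh v (dvg φ₁ φ₂) := by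
  funext x
  unfold dvg fSh
  rw [fderiv_comp_sub, fderiv_comp_sub]

theorem fder_sh (v : ℤ × ℤ) (ψ : ℝ × ℝ → ℝ) (a : ℝ × ℝ) :
    (fun x => fderiv ℝ (fSh v ψ) x a) = fSh v (fun x => fderiv ℝ ψ x a) := by
  funext x
  unfold fSh
  rw [fderiv_comp_sub]

theorem lapl_sh (v : ℤ × ℤ) (ψ : ℝ × ℝ → ℝ) : lapl (fSh v ψ) = fSh v (lapl ψ) := by
  unfold lapl
  rw [fder_sh, fder_sh, dvg_sh]

theorem cm_sh (v : ℤ × ℤ) (F : ℝ × ℝ → ℝ) {n : ℕ} (hn : 0 < n) (z : ℤ × ℤ) :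
    H638.cm (fSh v F) (1 / n) z = H638.cm F (1 / n) (z - (n : ℤ) • v) := by
  have hn0 : (n : ℝ) ≠ 0 := by positivity
  unfold H638.cm
  rw [← integral_indicator (H638.measurableSet_cl _ _),
    ← integral_indicator (H638.measurableSet_cl _ _),
    ← integral_sub_right_eq_self (fun x => (H638.cl (1 / (n : ℝ)) (z - (n : ℤ) • v)).indicator F x)
      (rv v)]
  refine integral_congr_ae (Eventually.of_forall fun x => ?_)
  have hm : x - rv v ∈ H638.cl (1 / (n : ℝ)) (z - (n : ℤ) • v) ↔ x ∈ H638.cl (1 / (n : ℝ)) z := by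
    have e1 : (x.1 - (rv v).1) / (1 / (n : ℝ)) = x.1 / (1 / (n : ℝ)) - ((n * v.1 : ℤ) : ℝ) := by
      simp only [rv]
      push_cast
      field_simp
    have e2 : (x.2 - (rv v).2) / (1 / (n : ℝ)) = x.2 / (1 / (n : ℝ)) - ((n * v.2 : ℤ) : ℝ) := by
      simp only [rv]
      push_cast
      field_simp
    simp only [H638.cl, Set.mem_ofPred_eq, Prod.fst_sub, Prod.snd_sub, e1, e2,
      Int.floor_sub_intCast, Prod.smul_fst, Prod.smul_snd, smul_eq_mul]
    constructor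
    · rintro ⟨h1, h2⟩
      exact ⟨by linarith, by linarith⟩
    · rintro ⟨h1, h2⟩
      exact ⟨by linarith, by linarith⟩
  by_cases hx : x ∈ H638.cl (1 / (n : ℝ)) z
  · simp only [Set.indicator_of_mem hx, Set.indicator_of_mem (hm.2 hx)]
    rfl
  · simp only [Set.indicator_of_notMem hx, Set.indicator_of_notMem fun h => hx (hm.1 h)]

theorem alpq_sh (v : ℤ × ℤ) (σ : ℝ) (f ψ : ℝ × ℝ → ℝ) (s : ℝ) :
    alpq σ (fSh v f) (fSh v ψ) s = alpq σ f ψ s := by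
  unfold alpq
  have e1 : ∫ x, fSh v f x * fSh v ψ x = ∫ x, f x * ψ x :=
    integral_sub_right_eq_self (fun x => f x * ψ x) (rv v)
  have e2 : ∫ x, (fderiv ℝ (fSh v ψ) x (1, 0) ^ 2 + fderiv ℝ (fSh v ψ) x (0, 1) ^ 2) =
      ∫ x, (fderiv ℝ ψ x (1, 0) ^ 2 + fderiv ℝ ψ x (0, 1) ^ 2) := by
    rw [← integral_sub_right_eq_self
      (fun x => fderiv ℝ ψ x (1, 0) ^ 2 + fderiv ℝ ψ x (0, 1) ^ 2) (rv v)]
    refine integral_congr_ae (Eventually.of_forall fun x => ?_)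
    unfold fSh
    simp only [fderiv_comp_sub]
  rw [e1, e2]

theorem domP_sh (v : ℤ × ℤ) (S₀ : Finset (ℤ × ℤ)) (x : ℝ × ℝ) :
    x ∈ domP (sSh v S₀) ↔ x - rv v ∈ domP S₀ := by
  obtain ⟨c, hc⟩ : ∃ c : ℂ, c = ⟨v.1, v.2⟩ := ⟨_, rfl⟩
  have h1 : region 1 (sSh v S₀) = (Homeomorph.addRight (-c)) ⁻¹' region 1 S₀ := by
    ext z
    have hre : (z + -c).re = z.re - v.1 := by rw [hc]; simp [sub_eq_add_neg]
    have him : (z + -c).im = z.im - v.2 := by rw [hc]; simp [sub_eq_add_neg]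
    simp only [region, sSh, Set.mem_preimage, Homeomorph.coe_addRight, Set.mem_ofPred_eq,
      mem_image, hre, him]
    constructor
    · rintro ⟨_, ⟨g, hg, rfl⟩, a1, a2, a3, a4⟩
      refine ⟨g, hg, ?_, ?_, ?_, ?_⟩ <;>
      · simp only [Prod.fst_add, Prod.snd_add, Int.cast_add] at a1 a2 a3 a4
        linarith
    · rintro ⟨g, hg, a1, a2, a3, a4⟩
      refine ⟨_, ⟨g, hg, rfl⟩, ?_, ?_, ?_, ?_⟩ <;>
      · simp only [Prod.fst_add, Prod.snd_add, Int.cast_add]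
        linarith
  unfold domP
  simp only [Set.mem_ofPred_eq]
  rw [h1, ← Homeomorph.preimage_interior, Set.mem_preimage]
  have e : (Homeomorph.addRight (-c)) (⟨x.1, x.2⟩ : ℂ) = ⟨(x - rv v).1, (x - rv v).2⟩ := by
    rw [hc]
    apply Complex.ext <;> simp [rv, sub_eq_add_neg]
  rw [e]

theorem tsupport_sh (v : ℤ × ℤ) (F : ℝ × ℝ → ℝ) (x : ℝ × ℝ) :
    x ∈ tsupport (fSh v F) ↔ x - rv v ∈ tsupport F := by
  have h : tsupport (fSh v F) = (Homeomorph.subRight (rv v)) ⁻¹' tsupport F := by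
    exact tsupport_comp_eq_preimage F (Homeomorph.subRight (rv v))
  rw [h]
  rfl

end plane

/-! ### the reduction -/

/-- The translated box. -/
def bSh (v : ℤ × ℤ) (b : Box) : Box := ⟨b.xl + v.1, b.xr + v.1, b.yb + v.2, b.yt + v.2⟩

theorem ok_sh {v : ℤ × ℤ} {b : Box} {S₀ : Finset (ℤ × ℤ)} (h : b.Ok S₀) :
    (bSh v b).Ok (sSh v S₀) where
  lr := by simpa [bSh] using h.lr
  bt := by simpa [bSh] using h.bt
  sub x h1 h2 h3 h4 := by
    rw [domP_sh]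
    simp only [bSh] at h1 h2 h3 h4
    refine h.sub _ ?_ ?_ ?_ ?_ <;> simp only [rv, Prod.fst_sub, Prod.snd_sub] <;> linarith
  gx := by simpa [bSh, Int.fract_add_intCast] using h.gx
  gy := by simpa [bSh, Int.fract_add_intCast] using h.gy

theorem gp_sh {v : ℤ × ℤ} {b : Box} {tp : ℝ}
    (h : ∀ i : ℤ, ∀ y ∈ ({b.xl, b.xr, b.yb, b.yt} : Set ℝ), y ≠ i + tp ∧ y ≠ i - tp) :
    ∀ i : ℤ, ∀ y ∈ ({(bSh v b).xl, (bSh v b).xr, (bSh v b).yb, (bSh v b).yt} : Set ℝ),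
      y ≠ i + tp ∧ y ≠ i - tp := by
  intro i y hy
  have key : ∀ (y0 : ℝ) (m : ℤ), y0 ∈ ({b.xl, b.xr, b.yb, b.yt} : Set ℝ) → y = y0 + m →
      y ≠ i + tp ∧ y ≠ i - tp := by
    intro y0 m h0 e
    have h1 := h (i - m) y0 h0
    push_cast at h1
    rw [e]
    refine ⟨fun h2 => h1.1 (by linarith), fun h2 => h1.2 (by linarith)⟩
  simp only [Set.mem_insert_iff, Set.mem_singleton_iff] at hy
  rcases hy with rfl | rfl | rfl | rfl
  · exact key b.xl v.1 (by simp) rfl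
  · exact key b.xr v.1 (by simp) rfl
  · exact key b.yb v.2 (by simp) rfl
  · exact key b.yt v.2 (by simp) rfl

theorem mem_lines_sh {v : ℤ × ℤ} {b : Box} {x : ℝ × ℝ} (h : x ∈ (bSh v b).lines) :
    x - rv v ∈ b.lines := by
  simp only [Box.lines, bSh, rv, Set.mem_ofPred_eq, Prod.fst_sub, Prod.snd_sub] at h ⊢
  rcases h with h | ⟨h, h'⟩ | ⟨h, h'⟩ | ⟨h, h', h''⟩
  · exact Or.inl (by linarith)
  · exact Or.inr (Or.inl ⟨by linarith, by linarith⟩)
  · exact Or.inr (Or.inr (Or.inl ⟨by linarith, by linarith⟩))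
  · exact Or.inr (Or.inr (Or.inr ⟨by linarith, by linarith, by linarith⟩))

theorem Bc.gp_sh {v : ℤ × ℤ} {b : Box} {bc : Bc} (h : bc.Gp b) : bc.Gp (bSh v b) := by
  cases bc with
  | free => trivial
  | wired => trivial
  | dob ia ta => exact Vale.Agent.P167.N.H825.Q.gp_sh h

/-- The output of block 2A from the polygons in the positive quadrant. -/
theorem s2aQq_of_N {θ β : ℝ} (h : S2aQqN θ β) : S2aQq θ β := by
  intro l _ p S₀ hp hD tp h0 h1 bc hbc b hb hg hgb φ₁ φ₂ ψ c1 c2 c3 k1 k2 k3 s1 s2 s3 d1 d2 s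
  obtain ⟨A, hA⟩ : ∃ A : ℕ, ∀ i, 2 ≤ (p i).1 + 2 * (A : ℤ) ∧ 2 ≤ (p i).2 + 2 * (A : ℤ) := by
    obtain ⟨B, hB⟩ := (Set.finite_range fun i => 2 + |(p i).1| + |(p i).2|).bddAbove
    refine ⟨B.toNat, fun i => ?_⟩
    have h2 : 2 + |(p i).1| + |(p i).2| ≤ B := hB ⟨i, rfl⟩
    have h3 := Int.self_le_toNat B
    have h4 := neg_abs_le (p i).1
    have h5 := neg_abs_le (p i).2
    have h6 := abs_nonneg (p i).1
    have h7 := abs_nonneg (p i).2
    constructor <;> omega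
  obtain ⟨v, hv⟩ : ∃ v : ℤ × ℤ, v = (2 * (A : ℤ), 2 * (A : ℤ)) := ⟨_, rfl⟩
  have hev : Even (v.1 + v.2) := by
    rw [hv]
    exact ⟨2 * (A : ℤ), rfl⟩
  have hcd : ContDiff ℝ ((⊤ : ℕ∞) : WithTop ℕ∞) (fun x : ℝ × ℝ => x - rv v) :=
    contDiff_id.sub contDiff_const
  have key := h l (pSh v p) (sSh v S₀) (poly_sh v hev hp) (enc_sh v hev hD)
    (fun i => by
      have := hA i
      unfold pSh
      rw [hv]
      exact this) tp h0 h1 bc hbc (bSh v b) (ok_sh hb) (gp_sh hg) (Bc.gp_sh hgb) (fSh v φ₁)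
    (fSh v φ₂) (fSh v ψ) (c1.comp hcd) (c2.comp hcd) (c3.comp hcd)
    (k1.comp_homeomorph (Homeomorph.subRight (rv v)))
    (k2.comp_homeomorph (Homeomorph.subRight (rv v)))
    (k3.comp_homeomorph (Homeomorph.subRight (rv v)))
    (fun x hx => (domP_sh v S₀ x).2 (s1 ((tsupport_sh v φ₁ x).1 hx)))
    (fun x hx => (domP_sh v S₀ x).2 (s2 ((tsupport_sh v φ₂ x).1 hx)))
    (fun x hx => by
      have h2 := s3 ((tsupport_sh v ψ x).1 hx)
      simp only [Set.mem_ofPred_eq, rv, Prod.fst_sub, Prod.snd_sub] at h2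
      simp only [Set.mem_ofPred_eq, bSh]
      obtain ⟨e1, e2, e3, e4⟩ := h2
      exact ⟨by linarith, by linarith, by linarith, by linarith⟩)
    (Set.disjoint_left.2 fun x hx hx' =>
      Set.disjoint_left.1 d1 ((tsupport_sh v φ₁ x).1 hx) (mem_lines_sh hx'))
    (Set.disjoint_left.2 fun x hx hx' =>
      Set.disjoint_left.1 d2 ((tsupport_sh v φ₂ x).1 hx) (mem_lines_sh hx')) s
  refine key.congr' ?_
  filter_upwards [eventually_gt_atTop 0] with n hn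
  rw [dvg_sh, lapl_sh, alpq_sh]
  have e1 : (fun x => fSh v (dvg φ₁ φ₂) x + s * fSh v (lapl ψ) x) =
      fSh v (fun x => dvg φ₁ φ₂ x + s * lapl ψ x) := rfl
  rw [e1, VT_sh v hev hp hn θ β _ _ _ _ fun z => cm_sh v _ hn z,
    VT_sh v hev hp hn θ β _ _ _ _ fun z => cm_sh v _ hn z]

end Vale.Agent.P167.N.H825.Q
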