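import Vale.Agent.P167.N.Kit
import Vale.Agent.P167.N.H592.QK1
import Vale.Agent.P167.H825.Q.DefsQ

/-!
# P167, `q < 1`, block 2A: START for an arbitrary class of walls

The interface between START (ID:9), HOS (ID:8), the geometry of the frames (ID:7) and the abstract
theorem `H680.T.s2a_abs`. Nothing here depends on the form of the rows.

* `STARTc θ β P Cl`: for every polygon, all boundary conditions and every box in general position
  there is a finite family of walls of the class `Cl` (a family in the sense of `H680.T.Fam`), such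
  that the values of the cut functionals satisfy START.
* `HOSc θ P Cl`: upper bound of the values of the admissible configurations of walls of the class.
* `S2aQqN θ β`: the output of block 2A for the polygons in the positive quadrant (`Nrm p`).
* `s2aQqN_ofc`: the output `S2aQqN θ β` from `HOSc` and `STARTc`.
-/

set_option autoImplicit false

namespace Vale.Agent.P167.N.H825.Q

open Vale.Agent.P167.H825.Q Vale.Agent.P167.H825

open Finset Filter Topology MeasureTheory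

open Vale.Agent.P167.H592

open Vale.Agent.P167.H680.T (WCG WallG Fc Fam HOSQ StartV fc_zero Cls)

open Vale.Agent.P167.H680.Q (alpq CentreQ)

open Vale.Agent.P167.E6 (IsPolygon Encloses)

/-- The lines of the box are in general position with respect to the base site `tp`. -/
def GpT (b : Box) (tp : ℝ) : Prop :=
  ∀ i : ℤ, ∀ y ∈ ({b.xl, b.xr, b.yb, b.yt} : Set ℝ), y ≠ i + tp ∧ y ≠ i - tp

/-- The polygon is in the positive quadrant. -/
def Nrm {l : ℕ} (p : ZMod l → ℤ × ℤ) : Prop := ∀ i, 2 ≤ (p i).1 ∧ 2 ≤ (p i).2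

/-- **Output of block 2A** for the polygons in the positive quadrant. -/
def S2aQqN (θ β : ℝ) : Prop :=
  ∀ (l : ℕ) [NeZero l] (p : ZMod l → ℤ × ℤ) (S₀ : Finset (ℤ × ℤ)), IsPolygon p → Encloses p S₀ →
  Nrm p →
  ∀ (tp : ℝ), 0 < tp → tp < 1 → ∀ bc : Bc, bc.In l → ∀ b : Box, b.Ok S₀ →
  (∀ i : ℤ, ∀ y ∈ ({b.xl, b.xr, b.yb, b.yt} : Set ℝ), y ≠ i + tp ∧ y ≠ i - tp) → bc.Gp b →
  ∀ φ₁ φ₂ ψ : ℝ × ℝ → ℝ, ContDiff ℝ ((⊤ : ℕ∞) : WithTop ℕ∞) φ₁ →
    ContDiff ℝ ((⊤ : ℕ∞) : WithTop ℕ∞) φ₂ → ContDiff ℝ ((⊤ : ℕ∞) : WithTop ℕ∞) ψ →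
    HasCompactSupport φ₁ → HasCompactSupport φ₂ → HasCompactSupport ψ →
    tsupport φ₁ ⊆ domP S₀ → tsupport φ₂ ⊆ domP S₀ →
    tsupport ψ ⊆ {x | b.xl < x.1 ∧ x.1 < b.xr ∧ b.yb < x.2 ∧ x.2 < b.yt} →
    Disjoint (tsupport φ₁) b.lines → Disjoint (tsupport φ₂) b.lines →
  ∀ s : ℝ, Tendsto (fun n : ℕ =>
      VT θ β p S₀ n ⌊tp * (n : ℝ)⌋₊ (bc.ka l n ⌊tp * (n : ℝ)⌋₊)
        (H638.cm (fun x => dvg φ₁ φ₂ x + s * lapl ψ x) (1 / n)) -
      alpq (2 / (Real.pi - θ)) (dvg φ₁ φ₂) ψ s *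
      VT θ β p S₀ n ⌊tp * (n : ℝ)⌋₊ (bc.ka l n ⌊tp * (n : ℝ)⌋₊)
        (H638.cm (dvg φ₁ φ₂) (1 / n))) atTop (𝓝 0)

/-- **START for a class of walls**: there is a family of walls (for every `n`), such that for all
flows `c` in the domain the value of the walls with the flow is the value of the walls times
`V (dv c)`, up to a small relative error; the value of the walls is of the order of the product of
the labels. -/
def STARTc (θ β : ℝ) (P : Measure Cfg) (Cl : Cls) : Prop :=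
  ∀ (l : ℕ) [NeZero l] (p : ZMod l → ℤ × ℤ) (S₀ : Finset (ℤ × ℤ)), IsPolygon p → Encloses p S₀ →
  Nrm p →
  ∀ tp : ℝ, 0 < tp → tp < 1 → ∀ bc : Bc, bc.In l → ∀ b : Box, b.Ok S₀ → GpT b tp → bc.Gp b →
  ∀ (κ B : ℝ), 0 < κ → ∀ ε : ℝ, 0 < ε →
  ∃ (ι : Type) (_ : Fintype ι) (reg : ι → Fin 5) (w : ℕ → ι → WallG), Fam Cl S₀ b reg w ∧
  ∃ c₀ : ℝ, 0 < c₀ ∧ ∀ᶠ n : ℕ in atTop,
    c₀ * ∏ i, Cl.Z n (w n i) ≤ WX θ P (⟨w n, 0⟩ : WCG ι) ∧
    ∀ c : Ed → ℝ, Fc (⟨w n, c⟩ : WCG ι) → FlowIn (enl S₀ n) κ B n c →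
      |WX θ P (⟨w n, c⟩ : WCG ι) - WX θ P (⟨w n, 0⟩ : WCG ι) *
          VT θ β p S₀ n ⌊tp * (n : ℝ)⌋₊ (bc.ka l n ⌊tp * (n : ℝ)⌋₊) (dv c)| ≤
        ε * WX θ P (⟨w n, 0⟩ : WCG ι)

/-- **HOS for a class of walls**: upper bound for the values of the configurations with at most `M`
walls. -/
def HOSc (θ : ℝ) (P : Measure Cfg) (Cl : Cls) : Prop :=
  ∀ (κ R B : ℝ) (M : ℕ), 0 < κ → ∃ C : ℝ, 0 < C ∧ ∀ᶠ n : ℕ in atTop,
    ∀ (ι : Type) [Fintype ι] (W : WCG ι), Fc W → Fintype.card ι ≤ M → W.Adm κ R B n →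
      W.In Cl κ n → |WX θ P W| ≤ C * W.Z Cl n

/-- HOS for the functional of the insertions. -/
theorem hosQ_ofc {θ : ℝ} {P : Measure Cfg} {om : Ins → ℂ} (h : OmQ θ P om) {Cl : Cls}
    (hH : HOSc θ P Cl) : HOSQ om Cl := by
  intro κ R B M hκ
  obtain ⟨C, hC, hev⟩ := hH κ R B M hκ
  refine ⟨C, hC, ?_⟩
  filter_upwards [hev] with n hn ι _ W hc h1 h2 h3
  rw [om_insW h W hc, Complex.norm_real]
  exact hn ι W hc h1 h2 h3

/-- **START for the abstract theorem.** -/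
theorem startV_ofc {θ β : ℝ} {P : Measure Cfg} {om : Ins → ℂ} (hom : OmQ θ P om)
    {Cl : Cls} (hS : STARTc θ β P Cl) {l : ℕ} [NeZero l]
    {p : ZMod l → ℤ × ℤ} {S₀ : Finset (ℤ × ℤ)} (hp : IsPolygon p) (hD : Encloses p S₀)
    (hN : Nrm p) {tp : ℝ} (h0 : 0 < tp) (h1 : tp < 1) {bc : Bc} (hbc : bc.In l) {b : Box} (hb : b.Ok S₀)
    (ht : GpT b tp) (hg : bc.Gp b) :
    StartV om Cl S₀ b (fun n f =>
      (VT θ β p S₀ n ⌊tp * (n : ℝ)⌋₊ (bc.ka l n ⌊tp * (n : ℝ)⌋₊) f : ℂ)) := by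
  intro κ B hκ ε hε
  obtain ⟨ι, hι, reg, w, hF, c₀, hc₀, hev⟩ := hS l p S₀ hp hD hN tp h0 h1 bc hbc b hb ht hg κ B hκ
    ε hε
  refine ⟨ι, hι, reg, w, hF, c₀, hc₀, ?_⟩
  filter_upwards [hev] with n hn
  have e0 : om (H680.T.insW (⟨w n, 0⟩ : WCG ι) (fc_zero _)).1 =
      (WX θ P (⟨w n, 0⟩ : WCG ι) : ℂ) := om_insW hom _ _
  rw [e0, Complex.ofReal_re]
  refine ⟨hn.1, fun c hc hfl => ?_⟩
  rw [om_insW hom _ hc]
  have h3 := hn.2 c hc hfl
  rw [← Complex.ofReal_mul, ← Complex.ofReal_sub, Complex.norm_real]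
  exact h3

/-- **The output of block 2A**, from an arbitrary class of walls. -/
theorem s2aQqN_ofc {θ β : ℝ} (hθ0 : 0 < θ) (hθ1 : Ang θ) {P : Measure Cfg}
    [IsProbabilityMeasure P] {om : Ins → ℂ} (hom : OmQ θ P om) {Cl : Cls} (hCl : Cl.Ok)
    (hY : CentreQ om (2 / (Real.pi - θ))) (hH : HOSc θ P Cl) (hS : STARTc θ β P Cl) :
    S2aQqN θ β := by
  have hθ1_lt := hθ1.lt
  intro l _ p S₀ hp hD hN tp h0 h1 bc hbc b hb ht hg φ₁ φ₂ ψ d1 d2 d3 k1 k2 k3 t1 t2 t3 j1 j2 s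
  have hpi := Real.pi_pos
  have hc1 : Kit (2 * Real.cos θ) := hθ1.kit
  have hc2 : 1 ≤ 2 * Real.cos (θ / 2) := by
    have h := Real.cos_le_cos_of_nonneg_of_le_pi (x := θ / 2) (y := Real.pi / 3) (by linarith)
      (by linarith) (by linarith)
    rw [Real.cos_pi_div_three] at h
    linarith
  have hok := Vale.Agent.P167.N.H592.OmQ.ok hom hc1 hθ0.le (by linarith)
  have hdat : H680.Dat S₀ b φ₁ φ₂ ψ :=
    ⟨hb.lr, hb.bt, hb.sub, d1, d2, d3, k1, k2, k3, t1, t2, t3, j1, j2⟩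
  have key := H680.T.s2a_abs hc2 hom.isOm hok hCl (hosQ_ofc hom hH) hY hdat s
    (startV_ofc hom hS hp hD hN h0 h1 hbc hb ht hg)
  have h2 := (Complex.continuous_re.tendsto 0).comp key
  rw [Complex.zero_re] at h2
  refine h2.congr fun n => ?_
  simp only [Function.comp_apply, ← Complex.ofReal_mul, ← Complex.ofReal_sub, Complex.ofReal_re]

end Vale.Agent.P167.N.H825.Q
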